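import Crest.Agent.R163.Q3.D.L9.P0_0
import Crest.Agent.R163.Q3.D.L9.P0_1

set_option autoImplicit false
set_option maxRecDepth 100000
set_option linter.all false
set_option Elab.async false

namespace Crest.Agent.R163.L9

theorem o0_17 : Ok2 par f17 Box3.unit C0 :=
  (Ok2.part 11733805916159 p0_17_4 (Ok2.part 7180648447 (Ok2.part 32767 p0_17_0 p0_17_1) (Ok2.split 0 p0_17_2 p0_17_3)))
theorem o0_16 : Ok2 par f16 Box3.unit C0 :=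
  (Ok2.part 1152921504562110463 p0_16_0 p0_16_1)
theorem o0_15 : Ok2 par f15 Box3.unit C0 :=
  p0_15_0
theorem o0_14 : Ok2 par f14 Box3.unit C0 :=
  (Ok2.part 3411300795872706559 p0_14_5 (Ok2.split 0 p0_14_4 (Ok2.split 0 p0_14_3 (Ok2.split 1 (Ok2.part 189 p0_14_0 p0_14_1) p0_14_2))))
theorem o0_13 : Ok2 par f13 Box3.unit C0 :=
  p0_13_0
theorem o0_12 : Ok2 par f12 Box3.unit C0 :=
  p0_12_0
theorem o0_11 : Ok2 par f11 Box3.unit C0 :=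
  (Ok2.part 33482762035305381887 p0_11_10 (Ok2.split 1 (Ok2.part 1047553 p0_11_2 (Ok2.split 0 p0_11_0 p0_11_1)) (Ok2.part 1023 p0_11_9 (Ok2.split 0 p0_11_8 (Ok2.split 1 p0_11_7 (Ok2.part 29 p0_11_6 (Ok2.split 0 p0_11_5 (Ok2.split 1 p0_11_3 p0_11_4))))))))
theorem o0_10 : Ok2 par f10 Box3.unit C0 :=
  p0_10_0
theorem o0_9 : Ok2 par f9 Box3.unit C0 :=
  (Ok2.part 4294967295 p0_9_0 p0_9_1)
theorem o0_8 : Ok2 par f8 Box3.unit C0 :=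
  (Ok2.part 4294967295 p0_8_0 p0_8_1)
theorem o0_7 : Ok2 par f7 Box3.unit C0 :=
  (Ok2.part 4294967295 p0_7_0 p0_7_1)
theorem o0_6 : Ok2 par f6 Box3.unit C0 :=
  (Ok2.part 4294967295 p0_6_0 p0_6_1)
theorem o0_5 : Ok2 par f5 Box3.unit C0 :=
  p0_5_0
theorem o0_4 : Ok2 par f4 Box3.unit C0 :=
  (Ok2.part 4294967295 p0_4_0 p0_4_1)
theorem o0_3 : Ok2 par f3 Box3.unit C0 :=
  p0_3_0
theorem o0_2 : Ok2 par f2 Box3.unit C0 :=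
  (Ok2.part 4294967295 p0_2_0 p0_2_1)
theorem o0_1 : Ok2 par f1 Box3.unit C0 :=
  (Ok2.part 4294967295 p0_1_0 p0_1_1)
theorem o0_0 : Ok2 par f0 Box3.unit C0 :=
  p0_0_0

theorem pt0 : PtAll2 par C0 :=
  PtAll2.of_okD hw (OkD2.cover [f0.dom,f1.dom,f2.dom,f3.dom,f4.dom,f5.dom,f6.dom,f7.dom,f8.dom,f9.dom,f10.dom,f11.dom,f12.dom,f13.dom,f14.dom,f15.dom,f16.dom,f17.dom]
    (.split 0 (.split 0 (.split 2 (.leaf 0) (.leaf 1)) (.split 2 (.split 1 (.split 0 (.leaf 2) (.leaf 3)) (.split 0 (.leaf 4) (.leaf 5))) (.split 1 (.split 0 (.leaf 6) (.leaf 7)) (.split 0 (.leaf 8) (.leaf 9))))) (.split 1 (.split 0 (.leaf 10) (.leaf 11)) (.split 0 (.split 1 (.leaf 12) (.leaf 13)) (.split 1 (.leaf 14) (.split 0 (.leaf 15) (.split 1 (.leaf 16) (.leaf 17)))))))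
    (by decide +kernel)
    (List.forall_mem_cons.2 ⟨OkD2.of_ok o0_0, (List.forall_mem_cons.2 ⟨OkD2.of_ok o0_1, (List.forall_mem_cons.2 ⟨OkD2.of_ok o0_2, (List.forall_mem_cons.2 ⟨OkD2.of_ok o0_3, (List.forall_mem_cons.2 ⟨OkD2.of_ok o0_4, (List.forall_mem_cons.2 ⟨OkD2.of_ok o0_5, (List.forall_mem_cons.2 ⟨OkD2.of_ok o0_6, (List.forall_mem_cons.2 ⟨OkD2.of_ok o0_7, (List.forall_mem_cons.2 ⟨OkD2.of_ok o0_8, (List.forall_mem_cons.2 ⟨OkD2.of_ok o0_9, (List.forall_mem_cons.2 ⟨OkD2.of_ok o0_10, (List.forall_mem_cons.2 ⟨OkD2.of_ok o0_11, (List.forall_mem_cons.2 ⟨OkD2.of_ok o0_12, (List.forall_mem_cons.2 ⟨OkD2.of_ok o0_13, (List.forall_mem_cons.2 ⟨OkD2.of_ok o0_14, (List.forall_mem_cons.2 ⟨OkD2.of_ok o0_15, (List.forall_mem_cons.2 ⟨OkD2.of_ok o0_16, (List.forall_mem_cons.2 ⟨OkD2.of_ok o0_17, (fun _ h => nomatch h)⟩)⟩)⟩)⟩)⟩)⟩)⟩)⟩)⟩)⟩)⟩)⟩)⟩)⟩)⟩)⟩)⟩)⟩))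

end Crest.Agent.R163.L9
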