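import Crest.Agent.R163.Q3.D.L9.S0
import Crest.Agent.R163.Q3.D.L9.H

set_option autoImplicit false
set_option maxRecDepth 100000
set_option linter.all false
set_option Elab.async false

namespace Crest.Agent.R163.L9

theorem p0_0_0 : Ok2 par f0 Box3.unit C0 :=
  Ok2.run hw hf0 ⟨263,19,19,10,12⟩ 58
    (.chk false 1229)
    (by decide +kernel)

theorem p0_1_0 : Ok2 par f1 Box3.unit (selB2 1 C0 4294967295) :=
  Ok2.run hw hf1 ⟨269,19,19,16,13⟩ 58
    (.chk false 1229)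
    (by decide +kernel)

theorem p0_1_1 : Ok2 par f1 Box3.unit (selB2 0 C0 4294967295) :=
  Ok2.run hw hf1 ⟨269,19,19,16,13⟩ 58
    (.chk false 1229)
    (by decide +kernel)

theorem p0_2_0 : Ok2 par f2 Box3.unit (selB2 1 C0 4294967295) :=
  Ok2.run hw hf2 ⟨266,19,19,13,13⟩ 58
    (.chk false 1229)
    (by decide +kernel)

theorem p0_2_1 : Ok2 par f2 Box3.unit (selB2 0 C0 4294967295) :=
  Ok2.run hw hf2 ⟨266,19,19,13,13⟩ 58
    (.chk false 1229)
    (by decide +kernel)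

theorem p0_3_0 : Ok2 par f3 Box3.unit C0 :=
  Ok2.run hw hf3 ⟨263,19,19,10,12⟩ 58
    (.chk false 1229)
    (by decide +kernel)

theorem p0_4_0 : Ok2 par f4 Box3.unit (selB2 1 C0 4294967295) :=
  Ok2.run hw hf4 ⟨266,19,19,13,13⟩ 58
    (.chk false 1229)
    (by decide +kernel)

theorem p0_4_1 : Ok2 par f4 Box3.unit (selB2 0 C0 4294967295) :=
  Ok2.run hw hf4 ⟨266,19,19,13,13⟩ 58
    (.chk false 1229)
    (by decide +kernel)

theorem p0_5_0 : Ok2 par f5 Box3.unit C0 :=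
  Ok2.run hw hf5 ⟨263,19,19,10,12⟩ 58
    (.chk false 1229)
    (by decide +kernel)

theorem p0_6_0 : Ok2 par f6 Box3.unit (selB2 1 C0 4294967295) :=
  Ok2.run hw hf6 ⟨269,19,19,16,13⟩ 58
    (.chk false 1229)
    (by decide +kernel)

theorem p0_6_1 : Ok2 par f6 Box3.unit (selB2 0 C0 4294967295) :=
  Ok2.run hw hf6 ⟨269,19,19,16,13⟩ 58
    (.chk false 1229)
    (by decide +kernel)

theorem p0_7_0 : Ok2 par f7 Box3.unit (selB2 1 C0 4294967295) :=
  Ok2.run hw hf7 ⟨266,19,19,13,13⟩ 58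
    (.chk false 1229)
    (by decide +kernel)

theorem p0_7_1 : Ok2 par f7 Box3.unit (selB2 0 C0 4294967295) :=
  Ok2.run hw hf7 ⟨266,19,19,13,13⟩ 58
    (.chk false 1229)
    (by decide +kernel)

theorem p0_8_0 : Ok2 par f8 Box3.unit (selB2 1 C0 4294967295) :=
  Ok2.run hw hf8 ⟨269,19,19,16,13⟩ 58
    (.chk false 1229)
    (by decide +kernel)

theorem p0_8_1 : Ok2 par f8 Box3.unit (selB2 0 C0 4294967295) :=
  Ok2.run hw hf8 ⟨269,19,19,16,13⟩ 58
    (.chk false 1229)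
    (by decide +kernel)

theorem p0_9_0 : Ok2 par f9 Box3.unit (selB2 1 C0 4294967295) :=
  Ok2.run hw hf9 ⟨266,19,19,13,13⟩ 58
    (.chk false 1229)
    (by decide +kernel)

theorem p0_9_1 : Ok2 par f9 Box3.unit (selB2 0 C0 4294967295) :=
  Ok2.run hw hf9 ⟨266,19,19,13,13⟩ 58
    (.chk false 1229)
    (by decide +kernel)

theorem p0_10_0 : Ok2 par f10 Box3.unit C0 :=
  Ok2.run hw hf10 ⟨260,19,19,10,12⟩ 58
    (.chk false 1229)
    (by decide +kernel)

theorem p0_11_0 : Ok2 par f11 ((Box3.unit.l 1).l 0) (selB2 0 (selB2 0 C0 33482762035305381887) 1047553) :=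
  Ok2.run hw hf11 ⟨340,19,19,10,12⟩ 58
    (.part 159 (.chk false 1229) (.split 1 (.chk false 614) (.chk false 614)))
    (by decide +kernel)

theorem p0_11_1 : Ok2 par f11 ((Box3.unit.l 1).r 0) (selB2 0 (selB2 0 C0 33482762035305381887) 1047553) :=
  Ok2.run hw hf11 ⟨352,19,19,10,12⟩ 58
    (.part 7 (.chk false 1229) (.split 1 (.chk false 614) (.part 4 (.chk false 614) (.split 1 (.chk false 614) (.chk false 614)))))
    (by decide +kernel)

theorem p0_11_2 : Ok2 par f11 (Box3.unit.l 1) (selB2 1 (selB2 0 C0 33482762035305381887) 1047553) :=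
  Ok2.run hw hf11 ⟨290,19,19,10,12⟩ 58
    (.chk false 1229)
    (by decide +kernel)

theorem p0_11_3 : Ok2 par f11 (((((Box3.unit.r 1).r 0).r 1).r 0).l 1) (selB2 0 (selB2 0 (selB2 0 C0 33482762035305381887) 1023) 29) :=
  Ok2.run hw hf11 ⟨378,19,19,10,12⟩ 58
    (.chk false 1229)
    (by decide +kernel)

theorem p0_11_4 : Ok2 par f11 (((((Box3.unit.r 1).r 0).r 1).r 0).r 1) (selB2 0 (selB2 0 (selB2 0 C0 33482762035305381887) 1023) 29) :=
  Ok2.run hw hf11 ⟨456,19,19,10,12⟩ 58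
    (.part 3 (.chk false 307) (.split 0 (.chk false 1229) (.split 1 (.part 13 (.chk false 1229) (.split 0 (.chk false 307) (.split 1 (.chk false 307) (.chk false 307)))) (.chk false 1229))))
    (by decide +kernel)

theorem p0_11_5 : Ok2 par f11 ((((Box3.unit.r 1).r 0).r 1).l 0) (selB2 0 (selB2 0 (selB2 0 C0 33482762035305381887) 1023) 29) :=
  Ok2.run hw hf11 ⟨353,19,19,10,12⟩ 58
    (.chk false 1229)
    (by decide +kernel)

theorem p0_11_6 : Ok2 par f11 (((Box3.unit.r 1).r 0).r 1) (selB2 1 (selB2 0 (selB2 0 C0 33482762035305381887) 1023) 29) :=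
  Ok2.run hw hf11 ⟨340,19,19,10,12⟩ 58
    (.chk false 307)
    (by decide +kernel)

theorem p0_11_7 : Ok2 par f11 (((Box3.unit.r 1).r 0).l 1) (selB2 0 (selB2 0 C0 33482762035305381887) 1023) :=
  Ok2.run hw hf11 ⟨413,19,19,10,12⟩ 58
    (.part 981 (.chk false 1229) (.split 1 (.chk false 307) (.part 6 (.chk false 307) (.split 0 (.chk false 307) (.split 0 (.chk false 307) (.split 1 (.chk false 307) (.chk false 307)))))))
    (by decide +kernel)

theorem p0_11_8 : Ok2 par f11 ((Box3.unit.r 1).l 0) (selB2 0 (selB2 0 C0 33482762035305381887) 1023) :=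
  Ok2.run hw hf11 ⟨318,19,19,10,12⟩ 58
    (.chk false 1229)
    (by decide +kernel)

theorem p0_11_9 : Ok2 par f11 (Box3.unit.r 1) (selB2 1 (selB2 0 C0 33482762035305381887) 1023) :=
  Ok2.run hw hf11 ⟨290,19,19,10,12⟩ 58
    (.chk false 1229)
    (by decide +kernel)

theorem p0_11_10 : Ok2 par f11 Box3.unit (selB2 1 C0 33482762035305381887) :=
  Ok2.run hw hf11 ⟨261,19,19,10,12⟩ 58
    (.chk false 1229)
    (by decide +kernel)

theorem p0_12_0 : Ok2 par f12 Box3.unit C0 :=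
  Ok2.run hw hf12 ⟨260,19,19,10,12⟩ 58
    (.chk false 1229)
    (by decide +kernel)

theorem p0_13_0 : Ok2 par f13 Box3.unit C0 :=
  Ok2.run hw hf13 ⟨260,19,19,10,12⟩ 58
    (.chk false 1229)
    (by decide +kernel)

theorem p0_14_0 : Ok2 par f14 (((Box3.unit.r 0).r 0).l 1) (selB2 1 (selB2 0 C0 3411300795872706559) 189) :=
  Ok2.run hw hf14 ⟨340,19,19,10,12⟩ 58
    (.chk false 1229)
    (by decide +kernel)

theorem p0_14_1 : Ok2 par f14 (((Box3.unit.r 0).r 0).l 1) (selB2 0 (selB2 0 C0 3411300795872706559) 189) :=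
  Ok2.run hw hf14 ⟨413,19,19,10,12⟩ 58
    (.split 0 (.chk false 1229) (.split 1 (.part 3 (.chk false 1229) (.split 1 (.chk false 1229) (.chk false 1229))) (.part 5 (.chk false 1229) (.split 0 (.chk false 1229) (.split 1 (.chk false 1229) (.chk false 1229))))))
    (by decide +kernel)

theorem p0_14_2 : Ok2 par f14 (((Box3.unit.r 0).r 0).r 1) (selB2 0 C0 3411300795872706559) :=
  Ok2.run hw hf14 ⟨340,19,19,10,12⟩ 58
    (.chk false 1229)
    (by decide +kernel)

theorem p0_14_3 : Ok2 par f14 ((Box3.unit.r 0).l 0) (selB2 0 C0 3411300795872706559) :=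
  Ok2.run hw hf14 ⟨303,19,19,10,12⟩ 58
    (.chk false 1229)
    (by decide +kernel)

theorem p0_14_4 : Ok2 par f14 (Box3.unit.l 0) (selB2 0 C0 3411300795872706559) :=
  Ok2.run hw hf14 ⟨290,19,19,10,12⟩ 58
    (.chk false 1229)
    (by decide +kernel)

theorem p0_14_5 : Ok2 par f14 Box3.unit (selB2 1 C0 3411300795872706559) :=
  Ok2.run hw hf14 ⟨261,19,19,10,12⟩ 58
    (.chk false 1229)
    (by decide +kernel)


end Crest.Agent.R163.L9
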